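import Mathlib
import Vale.Agent.Lib.P209.Defs
import Vale.Agent.Lib.P209.Layered

/-!
# P209: the layered packing theorem

Let `s 0 ≥ s 1 ≥ ...` be positive reals.  Label the balls injectively by lattice points
`a i ∈ ℕ^n`; the layer of the ball `i` is the largest coordinate `j` of its label, so that the layer
`j` has room for `(j + 1) ^ n - j ^ n` balls.  If every ball of the layer `j` has capacity smaller
than `s j` and `s 0 + ... + s j ≤ R`, then the balls can be packed symplectically into the open ball
of capacity `R`.
-/

open scoped ContDiff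

namespace Vale.Agent.Results.P209.LayeredPacking

open Vale.Agent.Lib.P209

theorem result (n k : ℕ) (R : ℝ) (r : Fin k → ℝ) (a : Fin k → Fin n → ℕ) (s : ℕ → ℝ)
    (ha : Function.Injective a) (hr : ∀ i, 0 < r i) (hs : ∀ j, 0 < s j) (hanti : Antitone s)
    (hrs : ∀ i, r i < s (Finset.univ.sup (a i)))
    (hR : ∀ i, ∑ t ∈ Finset.range (Finset.univ.sup (a i) + 1), s t ≤ R) :
    BallPacking n k r R :=
  layered n k R r a s ha hr hs hanti hrs hR

end Vale.Agent.Results.P209.LayeredPacking
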