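import Vale.Agent.Results.P209.PowTwoPacking
import Vale.Agent.Results.P209.LayeredPacking

/-!
# P209: symplectic ball packings, the two results in one statement

(1) The two conditions of Conjecture A are sufficient for at most `2 ^ n` balls of arbitrary
capacities.  (2) The layered sufficient condition for an arbitrary number of balls.
-/

namespace Vale.Agent.Results.P209.A_Combined

open Vale.Agent.Lib.P209

theorem result :
    (∀ (n k : ℕ), k ≤ 2 ^ n → ∀ (R : ℝ) (r : Fin k → ℝ), 0 < R →
      (∀ i, 0 < r i) → ∑ i, r i ^ n < R ^ n →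
      (∀ i j, i ≠ j → r i + r j < R) → BallPacking n k r R) ∧
    (∀ (n k : ℕ) (R : ℝ) (r : Fin k → ℝ) (a : Fin k → Fin n → ℕ) (s : ℕ → ℝ),
      Function.Injective a → (∀ i, 0 < r i) → (∀ j, 0 < s j) → Antitone s →
      (∀ i, r i < s (Finset.univ.sup (a i))) →
      (∀ i, ∑ t ∈ Finset.range (Finset.univ.sup (a i) + 1), s t ≤ R) →
      BallPacking n k r R) :=
  ⟨fun n k hk R r hR hr hvol hpair => PowTwoPacking.result n k hk R r hR hr hvol hpair,
    fun n k R r a s ha hr hs hanti hrs hR => LayeredPacking.result n k R r a s ha hr hs hanti hrs hR⟩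

end Vale.Agent.Results.P209.A_Combined
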