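import Mathlib

/-!
# P209: explicit corner packings of a ball by at most `n + 1` balls

We prove the sufficiency half of Conjecture A of Siegel and Yao for `k ≤ n + 1` balls of arbitrary
capacities.  The construction is completely explicit.  In one complex variable we use
* the squeeze `(x, y) ↦ (x / k'(y) + τ, k(y))` with `k(y) = y + β arctan (μ y)`, an area preserving
  diffeomorphism of the plane which moves a large disc off the origin and increases `|z|^2` by an
  arbitrarily small amount, and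
* the radial shift `w ↦ w * sqrt (1 + c / (π |w|^2))`, an area preserving embedding of the punctured
  plane which adds `c` to `π |w|^2`.
The `i`-th ball (`i ≥ 1`) is embedded by applying the composition to the coordinate `z_i` only.
-/

open scoped ContDiff

namespace Vale.Agent.Results.P209.CornerPacking

/-! ## Definitions used in the statement -/

/-- The standard symplectic form `ω₀ = ∑ dx_j ∧ dy_j` on `ℂ^n`, evaluated on two vectors. -/
def omega {n : ℕ} (u v : Fin n → ℂ) : ℝ :=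
  ∑ j, ((u j).re * (v j).im - (u j).im * (v j).re)

/-- The closed ball `B^{2n}(R)` of capacity `R`. -/
def closedBall (n : ℕ) (R : ℝ) : Set (Fin n → ℂ) := {z | Real.pi * ∑ j, ‖z j‖ ^ 2 ≤ R}

/-- The open ball `Int B^{2n}(R)` of capacity `R`. -/
def openBall (n : ℕ) (R : ℝ) : Set (Fin n → ℂ) := {z | Real.pi * ∑ j, ‖z j‖ ^ 2 < R}

/-- `φ` restricts to a symplectic embedding of some open neighbourhood `U` of `K`: it is smooth and
injective on `U` and its derivative preserves `ω₀` at every point of `U`. -/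
def IsSympEmbOn {n : ℕ} (φ : (Fin n → ℂ) → (Fin n → ℂ)) (K : Set (Fin n → ℂ)) : Prop :=
  ∃ U : Set (Fin n → ℂ), IsOpen U ∧ K ⊆ U ∧ ContDiffOn ℝ ∞ φ U ∧ Set.InjOn φ U ∧
    ∀ z ∈ U, ∀ u v, omega (fderiv ℝ φ z u) (fderiv ℝ φ z v) = omega u v

/-- There is a symplectic embedding of the disjoint union of the closed balls `B^{2n}(r i)` into
the open ball `Int B^{2n}(R)`. -/
def BallPacking (n k : ℕ) (r : Fin k → ℝ) (R : ℝ) : Prop :=
  ∃ φ : Fin k → (Fin n → ℂ) → (Fin n → ℂ),
    (∀ i, IsSympEmbOn (φ i) (closedBall n (r i))) ∧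
    (∀ i, φ i '' closedBall n (r i) ⊆ openBall n R) ∧
    (∀ i j, i ≠ j → Disjoint (φ i '' closedBall n (r i)) (φ j '' closedBall n (r j)))

/-! ## Planar area preserving maps -/

/-- the standard area form on the complex line -/
def om2 (u v : ℂ) : ℝ := u.re * v.im - u.im * v.re

lemma clm_apply_eq (L : ℂ →L[ℝ] ℝ) (u : ℂ) : L u = u.re * L 1 + u.im * L Complex.I := by
  have : u = u.re • (1 : ℂ) + u.im • Complex.I := by
    apply Complex.ext <;> simp
  calc L u = L (u.re • (1 : ℂ) + u.im • Complex.I) := by rw [← this]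
    _ = u.re * L 1 + u.im * L Complex.I := by
      rw [map_add, map_smul, map_smul, smul_eq_mul, smul_eq_mul]

lemma symp2_of_re_im {F : ℂ → ℂ} {z : ℂ} {L₁ L₂ : ℂ →L[ℝ] ℝ}
    (h₁ : HasFDerivAt (fun w => (F w).re) L₁ z) (h₂ : HasFDerivAt (fun w => (F w).im) L₂ z)
    (hdet : L₁ 1 * L₂ Complex.I - L₁ Complex.I * L₂ 1 = 1) :
    DifferentiableAt ℝ F z ∧ ∀ u v, om2 (fderiv ℝ F z u) (fderiv ℝ F z v) = om2 u v := by
  have h' : HasFDerivAt F (L₁.smulRight (1 : ℂ) + L₂.smulRight Complex.I) z := by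
    have := (h₁.smul_const (1 : ℂ)).add (h₂.smul_const Complex.I)
    refine this.congr_of_eventuallyEq (Filter.Eventually.of_forall fun w => ?_)
    apply Complex.ext <;> simp
  refine ⟨h'.differentiableAt, fun u v => ?_⟩
  rw [h'.fderiv]
  have e1 : ∀ u : ℂ, ((L₁.smulRight (1 : ℂ) + L₂.smulRight Complex.I) u).re = L₁ u := by
    intro u; simp
  have e2 : ∀ u : ℂ, ((L₁.smulRight (1 : ℂ) + L₂.smulRight Complex.I) u).im = L₂ u := by
    intro u; simp
  unfold om2
  rw [e1, e2, e1, e2, clm_apply_eq L₁ u, clm_apply_eq L₂ u, clm_apply_eq L₁ v, clm_apply_eq L₂ v]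
  have : (u.re * L₁ 1 + u.im * L₁ Complex.I) * (v.re * L₂ 1 + v.im * L₂ Complex.I) -
      (u.re * L₂ 1 + u.im * L₂ Complex.I) * (v.re * L₁ 1 + v.im * L₁ Complex.I)
      = (L₁ 1 * L₂ Complex.I - L₁ Complex.I * L₂ 1) * (u.re * v.im - u.im * v.re) := by ring
  rw [this, hdet, one_mul]

/-- `k(y) = y + β arctan(μ y)` -/
noncomputable def kf (β μ y : ℝ) : ℝ := y + β * Real.arctan (μ * y)

/-- `p(y) = 1 / k'(y)` -/
noncomputable def pf (β μ y : ℝ) : ℝ := (1 + (μ * y) ^ 2) / (1 + (μ * y) ^ 2 + β * μ)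

/-- the squeeze map -/
noncomputable def squeeze (β μ τ : ℝ) (z : ℂ) : ℂ := ⟨z.re * pf β μ z.im + τ, kf β μ z.im⟩

lemma hasDerivAt_kf (β μ y : ℝ) :
    HasDerivAt (kf β μ) (1 + β * (1 / (1 + (μ * y) ^ 2) * μ)) y := by
  unfold kf
  have h1 : HasDerivAt (fun y : ℝ => μ * y) μ y := by
    simpa using (hasDerivAt_id y).const_mul μ
  have h2 := (Real.hasDerivAt_arctan (μ * y)).comp y h1
  exact (hasDerivAt_id y).add (h2.const_mul β)

lemma den_pos {β μ : ℝ} (hβ : 0 ≤ β) (hμ : 0 ≤ μ) (y : ℝ) : 0 < 1 + (μ * y) ^ 2 + β * μ := by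
  positivity

lemma contDiff_pf {β μ : ℝ} (hβ : 0 ≤ β) (hμ : 0 ≤ μ) : ContDiff ℝ ∞ (pf β μ) := by
  unfold pf
  apply ContDiff.div
  · fun_prop
  · fun_prop
  · intro y; exact (den_pos hβ hμ y).ne'

lemma contDiff_kf (β μ : ℝ) : ContDiff ℝ ∞ (kf β μ) := by
  unfold kf
  have : ContDiff ℝ ∞ (fun y : ℝ => Real.arctan (μ * y)) :=
    Real.contDiff_arctan.comp (by fun_prop)
  fun_prop

lemma symp2_squeeze {β μ : ℝ} (hβ : 0 ≤ β) (hμ : 0 ≤ μ) (τ : ℝ) (z : ℂ) :
    DifferentiableAt ℝ (squeeze β μ τ) z ∧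
      ∀ u v, om2 (fderiv ℝ (squeeze β μ τ) z u) (fderiv ℝ (squeeze β μ τ) z v) = om2 u v := by
  have hp : HasDerivAt (pf β μ) (deriv (pf β μ) z.im) z.im :=
    ((contDiff_pf hβ hμ).differentiable (by simp) z.im).hasDerivAt
  have hre : HasFDerivAt (fun w : ℂ => w.re) Complex.reCLM z := Complex.reCLM.hasFDerivAt
  have him : HasFDerivAt (fun w : ℂ => w.im) Complex.imCLM z := Complex.imCLM.hasFDerivAt
  have h1 := (hre.mul (hp.comp_hasFDerivAt z him)).add_const τ
  have h2 := (hasDerivAt_kf β μ z.im).comp_hasFDerivAt z him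
  refine symp2_of_re_im (F := squeeze β μ τ) h1 h2 ?_
  have hd := den_pos hβ hμ z.im
  have hd' : 0 < 1 + (μ * z.im) ^ 2 := by positivity
  simp [pf]
  field_simp

/-- radial factor -/
noncomputable def gf (c t : ℝ) : ℝ := Real.sqrt (1 + c / (Real.pi * t))

/-- the radial shift `w ↦ w * sqrt (1 + c / (π |w|^2))` -/
noncomputable def shift (c : ℝ) (w : ℂ) : ℂ :=
  ⟨gf c (w.re * w.re + w.im * w.im) * w.re, gf c (w.re * w.re + w.im * w.im) * w.im⟩

lemma arg_pos {c t : ℝ} (hc : 0 ≤ c) (ht : 0 < t) : 0 < 1 + c / (Real.pi * t) := by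
  have := Real.pi_pos
  positivity

lemma hasDerivAt_gf {c t : ℝ} (hc : 0 ≤ c) (ht : 0 < t) :
    HasDerivAt (gf c) (-(c * Real.pi) / (Real.pi * t) ^ 2 / (2 * gf c t)) t := by
  unfold gf
  have hpi := Real.pi_pos
  have h1 : HasDerivAt (fun t : ℝ => Real.pi * t) Real.pi t := by
    simpa using (hasDerivAt_id t).const_mul Real.pi
  have h2 : HasDerivAt (fun t : ℝ => 1 + c / (Real.pi * t))
      (-(c * Real.pi) / (Real.pi * t) ^ 2) t := by
    have := ((hasDerivAt_const t c).div h1 (by positivity)).const_add 1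
    simpa using this
  exact h2.sqrt (arg_pos hc ht).ne'

lemma nsq_pos {w : ℂ} (hw : w ≠ 0) : 0 < w.re * w.re + w.im * w.im := by
  have := Complex.normSq_pos.mpr hw
  rwa [Complex.normSq_apply] at this

lemma symp2_shift {c : ℝ} (hc : 0 ≤ c) {w : ℂ} (hw : w ≠ 0) :
    DifferentiableAt ℝ (shift c) w ∧
      ∀ u v, om2 (fderiv ℝ (shift c) w u) (fderiv ℝ (shift c) w v) = om2 u v := by
  have ht := nsq_pos hw
  set t := w.re * w.re + w.im * w.im with htdef
  have hre : HasFDerivAt (fun w : ℂ => w.re) Complex.reCLM w := Complex.reCLM.hasFDerivAt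
  have him : HasFDerivAt (fun w : ℂ => w.im) Complex.imCLM w := Complex.imCLM.hasFDerivAt
  have hn := (hre.mul hre).add (him.mul him)
  have hg := (hasDerivAt_gf hc ht).comp_hasFDerivAt w hn
  have h1 := hg.mul hre
  have h2 := hg.mul him
  refine symp2_of_re_im (F := shift c) h1 h2 ?_
  have hpi := Real.pi_pos
  have hgpos : 0 < gf c t := Real.sqrt_pos.mpr (arg_pos hc ht)
  have hgsq : gf c t ^ 2 = 1 + c / (Real.pi * t) := Real.sq_sqrt (arg_pos hc ht).le
  simp only [ContinuousLinearMap.add_apply, ContinuousLinearMap.smul_apply, Complex.reCLM_apply,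
    Complex.imCLM_apply, Complex.one_re, Complex.one_im, Complex.I_re, Complex.I_im, smul_eq_mul,
    Function.comp, Pi.add_apply, Pi.mul_apply]
  rw [← htdef]
  set g := gf c t with hgdef
  set d := -(c * Real.pi) / (Real.pi * t) ^ 2 / (2 * g) with hddef
  have hd : 2 * g * d = -(c * Real.pi) / (Real.pi * t) ^ 2 := by
    rw [hddef]; field_simp
  have key : (g * 1 + w.re * (d * (w.re * 1 + w.re * 1 + (w.im * 0 + w.im * 0)))) *
        (g * 1 + w.im * (d * (w.re * 0 + w.re * 0 + (w.im * 1 + w.im * 1)))) -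
      (g * 0 + w.re * (d * (w.re * 0 + w.re * 0 + (w.im * 1 + w.im * 1)))) *
        (g * 0 + w.im * (d * (w.re * 1 + w.re * 1 + (w.im * 0 + w.im * 0))))
      = g ^ 2 + (w.re * w.re + w.im * w.im) * (2 * g * d) := by ring
  rw [key, ← htdef, hd, hgsq]
  field_simp
  ring

/-- a map into `ℂ` is smooth as soon as its real and imaginary parts are -/
lemma contDiffOn_mk {f g : ℂ → ℝ} {U : Set ℂ} (hf : ContDiffOn ℝ ∞ f U) (hg : ContDiffOn ℝ ∞ g U) :
    ContDiffOn ℝ ∞ (fun z => (⟨f z, g z⟩ : ℂ)) U := by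
  have h1 : ContDiffOn ℝ ∞ (fun z => f z • (1 : ℂ) + g z • Complex.I) U :=
    (hf.smul contDiffOn_const).add (hg.smul contDiffOn_const)
  refine h1.congr fun z _ => ?_
  apply Complex.ext <;> simp

lemma contDiff_re : ContDiff ℝ ∞ (fun z : ℂ => z.re) := Complex.reCLM.contDiff
lemma contDiff_im : ContDiff ℝ ∞ (fun z : ℂ => z.im) := Complex.imCLM.contDiff

lemma contDiffOn_squeeze {β μ : ℝ} (hβ : 0 ≤ β) (hμ : 0 ≤ μ) (τ : ℝ) (U : Set ℂ) :
    ContDiffOn ℝ ∞ (squeeze β μ τ) U := by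
  unfold squeeze
  apply contDiffOn_mk
  · exact ((contDiff_re.mul ((contDiff_pf hβ hμ).comp contDiff_im)).add contDiff_const).contDiffOn
  · exact ((contDiff_kf β μ).comp contDiff_im).contDiffOn

lemma contDiffOn_shift {c : ℝ} (hc : 0 ≤ c) : ContDiffOn ℝ ∞ (shift c) {w | w ≠ 0} := by
  have hn : ContDiff ℝ ∞ (fun w : ℂ => w.re * w.re + w.im * w.im) :=
    (contDiff_re.mul contDiff_re).add (contDiff_im.mul contDiff_im)
  have hg : ContDiffOn ℝ ∞ (fun w : ℂ => gf c (w.re * w.re + w.im * w.im)) {w | w ≠ 0} := by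
    intro w hw
    have ht := nsq_pos hw
    have hpi := Real.pi_pos
    apply ContDiffAt.contDiffWithinAt
    unfold gf
    apply ContDiffAt.sqrt
    · apply ContDiffAt.add contDiffAt_const
      apply ContDiffAt.div contDiffAt_const
      · exact contDiffAt_const.mul hn.contDiffAt
      · positivity
    · exact (arg_pos hc ht).ne'
  unfold shift
  apply contDiffOn_mk
  · exact hg.mul contDiff_re.contDiffOn
  · exact hg.mul contDiff_im.contDiffOn

lemma nsq_shift {c : ℝ} (hc : 0 ≤ c) {w : ℂ} (hw : w ≠ 0) :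
    Real.pi * ((shift c w).re * (shift c w).re + (shift c w).im * (shift c w).im)
      = Real.pi * (w.re * w.re + w.im * w.im) + c := by
  have ht := nsq_pos hw
  have hpi := Real.pi_pos
  have hgsq : gf c (w.re * w.re + w.im * w.im) ^ 2 = 1 + c / (Real.pi * (w.re * w.re + w.im * w.im)) :=
    Real.sq_sqrt (arg_pos hc ht).le
  simp only [shift]
  set t := w.re * w.re + w.im * w.im with htdef
  have : gf c t * w.re * (gf c t * w.re) + gf c t * w.im * (gf c t * w.im) = gf c t ^ 2 * t := by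
    rw [htdef]; ring
  rw [this, hgsq]
  field_simp

lemma injOn_shift {c : ℝ} (hc : 0 ≤ c) : Set.InjOn (shift c) {w | w ≠ 0} := by
  intro w hw w' hw' h
  have h1 := nsq_shift hc hw
  have h2 := nsq_shift hc hw'
  rw [h] at h1
  have hpi := Real.pi_pos
  have ht : w.re * w.re + w.im * w.im = w'.re * w'.re + w'.im * w'.im := by
    have : Real.pi * (w.re * w.re + w.im * w.im) = Real.pi * (w'.re * w'.re + w'.im * w'.im) := by
      linarith
    exact mul_left_cancel₀ hpi.ne' this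
  have hg : 0 < gf c (w.re * w.re + w.im * w.im) := Real.sqrt_pos.mpr (arg_pos hc (nsq_pos hw))
  have hre := congrArg Complex.re h
  have him := congrArg Complex.im h
  simp only [shift] at hre him
  rw [← ht] at hre him
  apply Complex.ext
  · exact mul_left_cancel₀ hg.ne' hre
  · exact mul_left_cancel₀ hg.ne' him

lemma strictMono_kf {β μ : ℝ} (hβ : 0 ≤ β) (hμ : 0 ≤ μ) : StrictMono (kf β μ) := by
  intro y y' h
  unfold kf
  have : Real.arctan (μ * y) ≤ Real.arctan (μ * y') :=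
    Real.arctan_strictMono.monotone (mul_le_mul_of_nonneg_left h.le hμ)
  have := mul_le_mul_of_nonneg_left this hβ
  linarith

lemma pf_pos {β μ : ℝ} (hβ : 0 ≤ β) (hμ : 0 ≤ μ) (y : ℝ) : 0 < pf β μ y := by
  unfold pf
  have := den_pos hβ hμ y
  positivity

lemma pf_le_one {β μ : ℝ} (hβ : 0 ≤ β) (hμ : 0 ≤ μ) (y : ℝ) : pf β μ y ≤ 1 := by
  unfold pf
  rw [div_le_one (den_pos hβ hμ y)]
  have : 0 ≤ β * μ := by positivity
  linarith

lemma injective_squeeze {β μ : ℝ} (hβ : 0 ≤ β) (hμ : 0 ≤ μ) (τ : ℝ) :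
    Function.Injective (squeeze β μ τ) := by
  intro z z' h
  have hre := congrArg Complex.re h
  have him := congrArg Complex.im h
  simp only [squeeze] at hre him
  have hy : z.im = z'.im := (strictMono_kf hβ hμ).injective him
  rw [← hy] at hre
  apply Complex.ext _ hy
  have : z.re * pf β μ z.im = z'.re * pf β μ z.im := by linarith
  exact mul_right_cancel₀ (pf_pos hβ hμ z.im).ne' this

lemma squeeze_ne_zero {β μ τ : ℝ} (hβ : 0 ≤ β) (hμ : 0 ≤ μ) {z : ℂ}
    (hz : |z.re| < τ * (1 + β * μ)) : squeeze β μ τ z ≠ 0 := by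
  intro h
  have hre := congrArg Complex.re h
  have him := congrArg Complex.im h
  simp only [squeeze, Complex.zero_re, Complex.zero_im] at hre him
  have hy : z.im = 0 := by
    apply (strictMono_kf hβ hμ).injective
    rw [him]; simp [kf]
  rw [hy] at hre
  have hp : pf β μ 0 = 1 / (1 + β * μ) := by simp [pf]
  rw [hp] at hre
  have hpos : 0 < 1 + β * μ := by positivity
  have : z.re = -(τ * (1 + β * μ)) := by
    field_simp at hre
    linarith
  rw [this, abs_neg] at hz
  exact absurd hz (not_lt.mpr (le_abs_self _))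

lemma abs_kf_le {β μ : ℝ} (hβ : 0 ≤ β) (y : ℝ) : |kf β μ y| ≤ |y| + β * (Real.pi / 2) := by
  unfold kf
  have h1 : |Real.arctan (μ * y)| ≤ Real.pi / 2 :=
    abs_le.mpr ⟨(Real.neg_pi_div_two_lt_arctan _).le, (Real.arctan_lt_pi_div_two _).le⟩
  calc |y + β * Real.arctan (μ * y)| ≤ |y| + |β * Real.arctan (μ * y)| := abs_add_le _ _
    _ = |y| + β * |Real.arctan (μ * y)| := by rw [abs_mul, abs_of_nonneg hβ]
    _ ≤ |y| + β * (Real.pi / 2) := by
      have := mul_le_mul_of_nonneg_left h1 hβ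
      linarith

lemma nsq_squeeze_le {β μ τ : ℝ} (hβ : 0 ≤ β) (hμ : 0 ≤ μ) (hτ : 0 ≤ τ) (z : ℂ) :
    (squeeze β μ τ z).re * (squeeze β μ τ z).re + (squeeze β μ τ z).im * (squeeze β μ τ z).im
      ≤ (|z.re| + τ) ^ 2 + (|z.im| + β * (Real.pi / 2)) ^ 2 := by
  simp only [squeeze]
  have h1 : |z.re * pf β μ z.im + τ| ≤ |z.re| + τ := by
    calc |z.re * pf β μ z.im + τ| ≤ |z.re * pf β μ z.im| + |τ| := abs_add_le _ _
      _ = |z.re| * pf β μ z.im + τ := by
        rw [abs_mul, abs_of_pos (pf_pos hβ hμ z.im), abs_of_nonneg hτ]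
      _ ≤ |z.re| + τ := by
        have := mul_le_mul_of_nonneg_left (pf_le_one hβ hμ z.im) (abs_nonneg z.re)
        linarith
  have h2 := abs_kf_le (μ := μ) hβ z.im
  have e1 : (z.re * pf β μ z.im + τ) * (z.re * pf β μ z.im + τ) = |z.re * pf β μ z.im + τ| ^ 2 := by
    rw [sq_abs]; ring
  have e2 : kf β μ z.im * kf β μ z.im = |kf β μ z.im| ^ 2 := by
    rw [sq_abs]; ring
  rw [e1, e2]
  gcongr

/-- `ψ` is a smooth injective area preserving map on the open set `U` of the plane -/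
def Symp2On (ψ : ℂ → ℂ) (U : Set ℂ) : Prop :=
  IsOpen U ∧ ContDiffOn ℝ ∞ ψ U ∧ Set.InjOn ψ U ∧
    ∀ z ∈ U, ∀ u v, om2 (fderiv ℝ ψ z u) (fderiv ℝ ψ z v) = om2 u v

lemma sq_norm_eq (z : ℂ) : ‖z‖ ^ 2 = z.re * z.re + z.im * z.im := by
  rw [Complex.sq_norm, Complex.normSq_apply]

lemma exists_traynor {a c ε : ℝ} (ha : 0 < a) (hc : 0 ≤ c) (hε : 0 < ε) :
    ∃ (ψ : ℂ → ℂ) (U : Set ℂ), Symp2On ψ U ∧ {z : ℂ | Real.pi * ‖z‖ ^ 2 ≤ a} ⊆ U ∧
      ∀ z ∈ U, c < Real.pi * ‖ψ z‖ ^ 2 ∧ Real.pi * ‖ψ z‖ ^ 2 < Real.pi * ‖z‖ ^ 2 + c + ε := by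
  have hpi := Real.pi_pos
  have hpi3 := Real.pi_gt_three
  set ρ : ℝ := a + 1 with hρ
  have hρpos : 0 < ρ := by positivity
  set t : ℝ := min 1 (ε / (2 * Real.pi * (4 * ρ + 2))) with ht
  have htpos : 0 < t := by
    apply lt_min one_pos; positivity
  have ht1 : t ≤ 1 := min_le_left _ _
  have ht2 : t ≤ ε / (2 * Real.pi * (4 * ρ + 2)) := min_le_right _ _
  set β : ℝ := 2 * t / Real.pi with hβdef
  have hβpos : 0 < β := by positivity
  have hβt : β * (Real.pi / 2) = t := by rw [hβdef]; field_simp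
  set μ : ℝ := ρ / (t * β) with hμdef
  have hμpos : 0 < μ := by positivity
  have hτμ : t * (1 + β * μ) = t + ρ := by rw [hμdef]; field_simp
  have hne : ∀ z ∈ Metric.ball (0 : ℂ) ρ, squeeze β μ t z ≠ 0 := by
    intro z hz
    apply squeeze_ne_zero hβpos.le hμpos.le
    rw [hτμ]
    have h1 : |z.re| ≤ ‖z‖ := Complex.abs_re_le_norm z
    have h2 : ‖z‖ < ρ := by simpa using hz
    linarith
  refine ⟨shift c ∘ squeeze β μ t, Metric.ball 0 ρ, ⟨Metric.isOpen_ball, ?_, ?_, ?_⟩, ?_, ?_⟩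
  · exact (contDiffOn_shift hc).comp (contDiffOn_squeeze hβpos.le hμpos.le t _) hne
  · exact (injOn_shift hc).comp (injective_squeeze hβpos.le hμpos.le t).injOn hne
  · intro z hz u v
    have h1 := symp2_squeeze hβpos.le hμpos.le t z
    have h2 := symp2_shift hc (hne z hz)
    rw [fderiv_comp z h2.1 h1.1]
    simp only [ContinuousLinearMap.comp_apply]
    rw [h2.2, h1.2]
  · intro z hz
    simp only [Set.mem_setOf_eq] at hz
    simp only [Metric.mem_ball, dist_zero_right]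
    by_contra hcon
    push_neg at hcon
    have : ρ ^ 2 ≤ ‖z‖ ^ 2 := by gcongr
    nlinarith
  · intro z hz
    have hw := hne z hz
    have hs := nsq_shift hc hw
    have hb := nsq_squeeze_le hβpos.le hμpos.le htpos.le z
    rw [hβt] at hb
    have hwpos := nsq_pos hw
    simp only [Function.comp]
    rw [sq_norm_eq, hs, sq_norm_eq]
    have h1 : |z.re| ≤ ‖z‖ := Complex.abs_re_le_norm z
    have h1' : |z.im| ≤ ‖z‖ := Complex.abs_im_le_norm z
    have h2 : ‖z‖ < ρ := by simpa using hz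
    constructor
    · nlinarith
    · have e1 : (|z.re| + t) ^ 2 + (|z.im| + t) ^ 2
          = z.re * z.re + z.im * z.im + (2 * t * (|z.re| + |z.im|) + 2 * t ^ 2) := by
        have a1 : |z.re| ^ 2 = z.re * z.re := by rw [sq_abs]; ring
        have a2 : |z.im| ^ 2 = z.im * z.im := by rw [sq_abs]; ring
        nlinarith
      have e2 : 2 * t * (|z.re| + |z.im|) + 2 * t ^ 2 ≤ t * (4 * ρ + 2) := by
        nlinarith
      have e3 : Real.pi * (t * (4 * ρ + 2)) ≤ ε / 2 := by
        have : t * (2 * Real.pi * (4 * ρ + 2)) ≤ ε := by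
          rwa [le_div_iff₀ (by positivity)] at ht2
        nlinarith
      have e4 : Real.pi * ((squeeze β μ t z).re * (squeeze β μ t z).re +
          (squeeze β μ t z).im * (squeeze β μ t z).im) ≤
          Real.pi * (z.re * z.re + z.im * z.im) + Real.pi * (t * (4 * ρ + 2)) := by
        rw [← mul_add]
        apply mul_le_mul_of_nonneg_left _ hpi.le
        linarith
      linarith

lemma symp2On_id : Symp2On id Set.univ := by
  refine ⟨isOpen_univ, contDiffOn_id, Function.injective_id.injOn, ?_⟩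
  intro z _ u v
  simp

lemma prod_symp {n : ℕ} (ψ : Fin n → ℂ → ℂ) (U : Fin n → Set ℂ) (h : ∀ l, Symp2On (ψ l) (U l)) :
    IsOpen (Set.univ.pi U) ∧ ContDiffOn ℝ ∞ (fun (z : Fin n → ℂ) l => ψ l (z l)) (Set.univ.pi U) ∧
    Set.InjOn (fun (z : Fin n → ℂ) l => ψ l (z l)) (Set.univ.pi U) ∧
    ∀ z ∈ Set.univ.pi U, ∀ u v,
      omega (fderiv ℝ (fun (z : Fin n → ℂ) l => ψ l (z l)) z u)
        (fderiv ℝ (fun (z : Fin n → ℂ) l => ψ l (z l)) z v) = omega u v := by
  refine ⟨isOpen_set_pi Set.finite_univ (fun l _ => (h l).1), ?_, ?_, ?_⟩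
  · rw [contDiffOn_pi]
    intro l
    exact (h l).2.1.comp (contDiff_apply ℝ ℂ l).contDiffOn (fun z hz => hz l (Set.mem_univ l))
  · intro z hz z' hz' heq
    funext l
    exact (h l).2.2.1 (hz l (Set.mem_univ l)) (hz' l (Set.mem_univ l)) (congrFun heq l)
  · intro z hz u v
    have hd : ∀ l, HasFDerivAt (fun z : Fin n → ℂ => ψ l (z l))
        ((fderiv ℝ (ψ l) (z l)).comp (ContinuousLinearMap.proj l)) z := by
      intro l
      have h1 : DifferentiableAt ℝ (ψ l) (z l) :=
        ((h l).2.1.contDiffAt ((h l).1.mem_nhds (hz l (Set.mem_univ l)))).differentiableAt (by simp)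
      exact h1.hasFDerivAt.comp z (ContinuousLinearMap.proj (R := ℝ) (φ := fun _ : Fin n => ℂ) l).hasFDerivAt
    have hD := hasFDerivAt_pi.mpr hd
    rw [hD.fderiv]
    unfold omega
    apply Finset.sum_congr rfl
    intro l _
    have := (h l).2.2.2 (z l) (hz l (Set.mem_univ l)) (u l) (v l)
    simpa [om2] using this

lemma exists_pos_le {ι : Type*} [Finite ι] (f : ι → ℝ) (hf : ∀ i, 0 < f i) :
    ∃ η : ℝ, 0 < η ∧ ∀ i, η ≤ f i := by
  rcases isEmpty_or_nonempty ι with h | h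
  · exact ⟨1, one_pos, fun i => (h.false i).elim⟩
  · obtain ⟨i0, hi0⟩ := Finite.exists_min f
    exact ⟨f i0, hf i0, hi0⟩

lemma single_le {n : ℕ} (z : Fin n → ℂ) (l : Fin n) : ‖z l‖ ^ 2 ≤ ∑ j, ‖z j‖ ^ 2 :=
  Finset.single_le_sum (f := fun j => ‖z j‖ ^ 2) (fun j _ => by positivity) (Finset.mem_univ l)

lemma pair_le {n : ℕ} (z : Fin n → ℂ) {l l' : Fin n} (h : l ≠ l') :
    ‖z l‖ ^ 2 + ‖z l'‖ ^ 2 ≤ ∑ j, ‖z j‖ ^ 2 := by
  have := Finset.sum_le_sum_of_subset_of_nonneg (f := fun j => ‖z j‖ ^ 2)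
    (Finset.subset_univ ({l, l'} : Finset (Fin n))) (fun j _ _ => by positivity)
  rwa [Finset.sum_pair h] at this

/-- **Corner packing theorem.** -/
theorem result (n k : ℕ) (hk : k ≤ n + 1) (R : ℝ) (r : Fin k → ℝ) (hR : 0 < R)
    (hr : ∀ i, 0 < r i) (hvol : ∑ i, r i ^ n < R ^ n)
    (hpair : ∀ i j, i ≠ j → r i + r j < R) : BallPacking n k r R := by
  classical
  have hpi := Real.pi_pos
  have hlt : ∀ i, r i < R := by
    intro i
    have h1 : r i ^ n ≤ ∑ j, r j ^ n :=
      Finset.single_le_sum (f := fun j => r j ^ n) (fun j _ => (pow_pos (hr j) n).le)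
        (Finset.mem_univ i)
    exact lt_of_pow_lt_pow_left₀ n hR.le (lt_of_le_of_lt h1 hvol)
  obtain ⟨η₁, hη₁, hη₁'⟩ := exists_pos_le (fun i => R - r i) (fun i => by linarith [hlt i])
  obtain ⟨η₂, hη₂, hη₂'⟩ := exists_pos_le
    (fun p : {p : Fin k × Fin k // p.1 ≠ p.2} => (R - r p.1.1 - r p.1.2) / 2)
    (fun p => by have := hpair p.1.1 p.1.2 p.2; linarith)
  set η := min η₁ η₂ with hηdef
  have hη : 0 < η := lt_min hη₁ hη₂
  have hA : ∀ i, r i + η ≤ R := by
    intro i
    have := hη₁' i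
    have h2 : η ≤ η₁ := min_le_left _ _
    linarith
  have hB : ∀ i j, i ≠ j → r i + r j + 2 * η ≤ R := by
    intro i j hij
    have := hη₂' ⟨(i, j), hij⟩
    have h2 : η ≤ η₂ := min_le_right _ _
    simp only at this
    linarith
  have hex := fun i => exists_traynor (a := r i) (c := R - r i - η) (ε := η) (hr i)
    (by linarith [hA i]) hη
  choose ψ U hψ hU hbd using hex
  -- the coordinatewise maps
  let ψ' : Fin k → Fin n → ℂ → ℂ := fun i l => if i.val = l.val + 1 then ψ i else id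
  let U' : Fin k → Fin n → Set ℂ := fun i l => if i.val = l.val + 1 then U i else Set.univ
  have hψ' : ∀ i l, Symp2On (ψ' i l) (U' i l) := by
    intro i l
    by_cases h : i.val = l.val + 1
    · simp only [ψ', U', if_pos h]; exact hψ i
    · simp only [ψ', U', if_neg h]; exact symp2On_id
  have hsub : ∀ i, closedBall n (r i) ⊆ Set.univ.pi (U' i) := by
    intro i z hz l _
    by_cases h : i.val = l.val + 1
    · simp only [U', if_pos h]
      apply hU i
      have h1 := single_le z l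
      have hz' : Real.pi * ∑ j, ‖z j‖ ^ 2 ≤ r i := hz
      have : Real.pi * ‖z l‖ ^ 2 ≤ Real.pi * ∑ j, ‖z j‖ ^ 2 :=
        mul_le_mul_of_nonneg_left h1 hpi.le
      exact le_trans this hz'
    · simp only [U', if_neg h]; exact Set.mem_univ _
  let Ψ : Fin k → (Fin n → ℂ) → (Fin n → ℂ) := fun i z l => ψ' i l (z l)
  -- lower bound in the special coordinate
  have H1 : ∀ i, ∀ z ∈ closedBall n (r i), ∀ l : Fin n, i.val = l.val + 1 →
      R - r i - η < Real.pi * ‖Ψ i z l‖ ^ 2 := by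
    intro i z hz l h
    have hzl := hsub i hz l (Set.mem_univ l)
    simp only [U', if_pos h] at hzl
    simp only [Ψ, ψ', if_pos h]
    exact (hbd i (z l) hzl).1
  have H3 : ∀ i : Fin k, i.val = 0 → ∀ z, Ψ i z = z := by
    intro i h z
    funext l
    have : ¬ i.val = l.val + 1 := by omega
    simp only [Ψ, ψ', if_neg this, id]
  have H2 : ∀ i, ∀ z ∈ closedBall n (r i), Real.pi * ∑ j, ‖Ψ i z j‖ ^ 2 < R := by
    intro i z hz
    have hz' : Real.pi * ∑ j, ‖z j‖ ^ 2 ≤ r i := hz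
    by_cases h0 : i.val = 0
    · rw [H3 i h0]; exact lt_of_le_of_lt hz' (hlt i)
    · have hi := i.isLt
      let l₀ : Fin n := ⟨i.val - 1, by omega⟩
      have hl₀ : i.val = l₀.val + 1 := by simp only [l₀]; omega
      have hzl := hsub i hz l₀ (Set.mem_univ l₀)
      simp only [U', if_pos hl₀] at hzl
      have hb := (hbd i (z l₀) hzl).2
      have e1 : ∑ j, ‖Ψ i z j‖ ^ 2 = ‖ψ i (z l₀)‖ ^ 2 + ∑ j ∈ Finset.univ.erase l₀, ‖z j‖ ^ 2 := by
        rw [← Finset.add_sum_erase _ _ (Finset.mem_univ l₀)]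
        congr 1
        · simp only [Ψ, ψ', if_pos hl₀]
        · apply Finset.sum_congr rfl
          intro j hj
          have hne : j ≠ l₀ := Finset.ne_of_mem_erase hj
          have : ¬ i.val = j.val + 1 := by
            intro hcon
            apply hne
            apply Fin.ext
            omega
          simp only [Ψ, ψ', if_neg this, id]
      have e2 : ∑ j, ‖z j‖ ^ 2 = ‖z l₀‖ ^ 2 + ∑ j ∈ Finset.univ.erase l₀, ‖z j‖ ^ 2 := by
        rw [← Finset.add_sum_erase _ _ (Finset.mem_univ l₀)]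
      rw [e1, mul_add]
      rw [e2, mul_add] at hz'
      linarith
  refine ⟨Ψ, ?_, ?_, ?_⟩
  · intro i
    obtain ⟨h1, h2, h3, h4⟩ := prod_symp (ψ' i) (U' i) (hψ' i)
    exact ⟨Set.univ.pi (U' i), h1, hsub i, h2, h3, h4⟩
  · rintro i _ ⟨z, hz, rfl⟩
    exact H2 i z hz
  · intro i j hij
    rw [Set.disjoint_left]
    rintro _ ⟨z, hz, rfl⟩ ⟨z', hz', heq⟩
    have hzc : Real.pi * ∑ l, ‖z l‖ ^ 2 ≤ r i := hz
    have hzc' : Real.pi * ∑ l, ‖z' l‖ ^ 2 ≤ r j := hz'
    have hi := i.isLt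
    have hj := j.isLt
    have hBij := hB i j hij
    by_cases hi0 : i.val = 0
    · have hj0 : j.val ≠ 0 := by
        intro h; apply hij; apply Fin.ext; omega
      let l₀ : Fin n := ⟨j.val - 1, by omega⟩
      have hl₀ : j.val = l₀.val + 1 := by simp only [l₀]; omega
      have h1 := H1 j z' hz' l₀ hl₀
      rw [heq, H3 i hi0] at h1
      have h2 := mul_le_mul_of_nonneg_left (single_le z l₀) hpi.le
      linarith
    · let l₁ : Fin n := ⟨i.val - 1, by omega⟩
      have hl₁ : i.val = l₁.val + 1 := by simp only [l₁]; omega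
      have h1 := H1 i z hz l₁ hl₁
      by_cases hj0 : j.val = 0
      · rw [← heq, H3 j hj0] at h1
        have h2 := mul_le_mul_of_nonneg_left (single_le z' l₁) hpi.le
        linarith
      · let l₂ : Fin n := ⟨j.val - 1, by omega⟩
        have hl₂ : j.val = l₂.val + 1 := by simp only [l₂]; omega
        have h2 := H1 j z' hz' l₂ hl₂
        rw [heq] at h2
        have hne : l₁ ≠ l₂ := by
          intro h
          apply hij
          apply Fin.ext
          have := congrArg Fin.val h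
          omega
        have h3 := mul_le_mul_of_nonneg_left (pair_le (Ψ i z) hne) hpi.le
        have h4 := H2 i z hz
        rw [mul_add] at h3
        linarith

end Vale.Agent.Results.P209.CornerPacking
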