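import Mathlib
import Vale.Agent.Lib.P209.Defs
import Vale.Agent.Lib.P209.Layered

/-!
# P209: Conjecture A of Siegel and Yao holds for at most `2 ^ n` balls

The largest ball is put at the centre, all the other balls are put into the remaining layer, which
has room for `2 ^ n - 1` balls by the layered packing theorem.
-/

open scoped ContDiff

namespace Vale.Agent.Results.P209.PowTwoPacking

open Vale.Agent.Lib.P209

lemma exists_pos_le {ι : Type*} [Finite ι] (f : ι → ℝ) (hf : ∀ i, 0 < f i) :
    ∃ η : ℝ, 0 < η ∧ ∀ i, η ≤ f i := by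
  rcases isEmpty_or_nonempty ι with h | h
  · exact ⟨1, one_pos, fun i => (h.false i).elim⟩
  · obtain ⟨i0, hi0⟩ := Finite.exists_min f
    exact ⟨f i0, hf i0, hi0⟩

/-- labels in the cube `{0, 1}^n`, the distinguished index getting the label `0` -/
lemma exists_labels (n k : ℕ) (hk : k ≤ 2 ^ n) (i₀ : Fin k) :
    ∃ a : Fin k → Fin n → ℕ, Function.Injective a ∧ Finset.univ.sup (a i₀) = 0 ∧
      ∀ i, i ≠ i₀ → Finset.univ.sup (a i) = 1 := by
  classical
  have hcard : Fintype.card (Fin k) ≤ Fintype.card (Fin n → Fin 2) := by simpa using hk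
  obtain ⟨e⟩ := Function.Embedding.nonempty_of_card_le hcard
  let b : Fin k → Fin n → Fin 2 := fun i => Equiv.swap (e i₀) 0 (e i)
  have hb : Function.Injective b := (Equiv.swap (e i₀) 0).injective.comp e.injective
  have hb0 : b i₀ = 0 := Equiv.swap_apply_left _ _
  refine ⟨fun i l => (b i l : ℕ), ?_, ?_, ?_⟩
  · intro i j h
    apply hb
    funext l
    exact Fin.ext (congrFun h l)
  · simp [hb0]
  · intro i hi
    apply le_antisymm
    · apply Finset.sup_le
      intro l _
      have := (b i l).isLt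
      show (b i l : ℕ) ≤ 1
      omega
    · have hne : b i ≠ 0 := fun h => hi (hb (h.trans hb0.symm))
      obtain ⟨l, hl⟩ := Function.ne_iff.mp hne
      have h1 : 1 ≤ (b i l : ℕ) := by
        have : (b i l : ℕ) ≠ 0 := fun h => hl (Fin.ext h)
        omega
      exact le_trans h1 (Finset.le_sup (f := fun l => (b i l : ℕ)) (Finset.mem_univ l))

theorem result (n k : ℕ) (hk : k ≤ 2 ^ n) (R : ℝ) (r : Fin k → ℝ) (hR : 0 < R)
    (hr : ∀ i, 0 < r i) (hvol : ∑ i, r i ^ n < R ^ n)
    (hpair : ∀ i j, i ≠ j → r i + r j < R) : BallPacking n k r R := by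
  classical
  rcases isEmpty_or_nonempty (Fin k) with hemp | hnon
  · exact ⟨fun i => (hemp.false i).elim, fun i => (hemp.false i).elim,
      fun i => (hemp.false i).elim, fun i => (hemp.false i).elim⟩
  have hlt : ∀ i, r i < R := by
    intro i
    have h1 : r i ^ n ≤ ∑ j, r j ^ n :=
      Finset.single_le_sum (f := fun j => r j ^ n) (fun j _ => (pow_pos (hr j) n).le)
        (Finset.mem_univ i)
    exact lt_of_pow_lt_pow_left₀ n hR.le (lt_of_le_of_lt h1 hvol)
  obtain ⟨i₀, hi₀⟩ := Finite.exists_max r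
  obtain ⟨η₁, hη₁, hη₁'⟩ := exists_pos_le (fun i => (R - r i) / 2) (fun i => by linarith [hlt i])
  obtain ⟨η₂, hη₂, hη₂'⟩ := exists_pos_le
    (fun p : {p : Fin k × Fin k // p.1 ≠ p.2} => (R - r p.1.1 - r p.1.2) / 2)
    (fun p => by have := hpair p.1.1 p.1.2 p.2; linarith)
  set η := min η₁ η₂ with hηdef
  have hη : 0 < η := lt_min hη₁ hη₂
  have hA : ∀ i, r i + 2 * η ≤ R := by
    intro i
    have := hη₁' i
    have h2 : η ≤ η₁ := min_le_left _ _
    linarith
  have hB : ∀ i j, i ≠ j → r i + r j + 2 * η ≤ R := by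
    intro i j hij
    have := hη₂' ⟨(i, j), hij⟩
    have h2 : η ≤ η₂ := min_le_right _ _
    simp only at this
    linarith
  obtain ⟨a, ha, ha0, ha1⟩ := exists_labels n k hk i₀
  set s₀ : ℝ := max (r i₀ + η) (R / 2) with hs₀
  have h1 : r i₀ + η ≤ s₀ := le_max_left _ _
  have h2 : R / 2 ≤ s₀ := le_max_right _ _
  have h3 : s₀ < R := max_lt (by linarith [hA i₀]) (by linarith)
  have h4 : ∀ i, i ≠ i₀ → s₀ < R - r i := by
    intro i hi
    apply max_lt
    · linarith [hB i i₀ hi]
    · linarith [hB i i₀ hi, hi₀ i]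
  refine layered n k R r a (fun j => if j = 0 then s₀ else R - s₀) ha hr ?_ ?_ ?_ ?_
  · intro j
    show 0 < if j = 0 then s₀ else R - s₀
    split_ifs
    · linarith
    · linarith
  · intro j j' hjj'
    show (if j' = 0 then s₀ else R - s₀) ≤ if j = 0 then s₀ else R - s₀
    by_cases hj : j = 0
    · rw [if_pos hj]
      split_ifs
      · exact le_rfl
      · linarith
    · have hj' : j' ≠ 0 := by omega
      rw [if_neg hj, if_neg hj']
  · intro i
    by_cases hi : i = i₀
    · rw [hi, ha0]
      simp only [if_true]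
      linarith
    · rw [ha1 i hi]
      simp only [one_ne_zero, if_false]
      linarith [h4 i hi]
  · intro i
    by_cases hi : i = i₀
    · rw [hi, ha0]
      simp
      exact h3.le
    · rw [ha1 i hi]
      simp [Finset.sum_range_succ]

end Vale.Agent.Results.P209.PowTwoPacking
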